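import Vale.Agent.P231.WE.F
import Vale.Agent.P231.WG.Cyc
import Vale.Agent.P231.WG.FrameExp
import Vale.Agent.P231.WR.Th
import Vale.Agent.P231.EN.Bound

/-!
# P231, glue of block Q, part 1: the connection form of the fibre over the base point
-/

set_option maxSynthPendingDepth 3
set_option linter.unusedSectionVars false
set_option linter.unusedVariables false

open Bundle Manifold Set Filter Module Topology MeasureTheory
open scoped ContDiff Manifold Topology

namespace Vale.Agent.P231.WQ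

open Vale.Agent.P234 Vale.Agent.P231 Vale.Agent.P231.Fm Vale.Agent.P231.W Vale.Agent.P231.WE
  Vale.Agent.P231.WG Vale.Agent.P231.WR Vale.Agent.P231.H775

noncomputable section

/-! ### transport by a linear isometry -/

section Iso

variable {V W : Type*} [NormedAddCommGroup V] [InnerProductSpace ℝ V] [FiniteDimensional ℝ V]
  [NormedAddCommGroup W] [InnerProductSpace ℝ W] [FiniteDimensional ℝ W]

/-- transport of a vector field -/
def tr (L : W ≃ₗᵢ[ℝ] V) (J : V → V) (y : W) : W := L.symm (J (L y))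

theorem rj_tr (L : W ≃ₗᵢ[ℝ] V) {J : V → V} (h : RJ J) : RJ (tr L J) where
  smooth y hy := by
    have h1 : L y ≠ 0 := fun h0 => hy (L.map_eq_zero_iff.1 h0)
    exact L.symm.contDiff.contDiffAt.comp y ((h.smooth _ h1).comp y L.contDiff.contDiffAt)
  hom t ht v := by
    rw [tr, map_smul, h.hom t ht, map_smul]
    rfl
  rot v c s hcs := by
    have h1 : L (c • v + s • tr L J v) = c • L v + s • J (L v) := by
      rw [map_add, map_smul, map_smul, tr, LinearIsometryEquiv.apply_symm_apply]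
    rw [tr, h1, h.rot _ _ _ hcs, map_add, map_neg, map_smul, map_smul,
      LinearIsometryEquiv.symm_apply_apply]
    rfl
  norm v := by rw [tr, L.symm.norm_map, h.norm, L.norm_map]
  orth v := by
    have h1 := L.inner_map_map (tr L J v) v
    rw [tr, LinearIsometryEquiv.apply_symm_apply] at h1
    rw [tr, ← h1, h.orth]

theorem cov_tr (L : W ≃ₗᵢ[ℝ] V) (J : V → V) (y : W) :
    cov (tr L J) y = (cov J (L y)).comp (L.toContinuousLinearEquiv : W →L[ℝ] V) := by
  ext z
  change (‖y‖ ^ 2)⁻¹ * inner ℝ (tr L J y) z = (‖L y‖ ^ 2)⁻¹ * inner ℝ (J (L y)) (L z)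
  rw [L.norm_map, ← L.inner_map_map (tr L J y) z, tr, LinearIsometryEquiv.apply_symm_apply]

theorem psi_tr (L : W ≃ₗᵢ[ℝ] V) (J : V → V) (y : W) :
    psi (tr L J) y = Fm.pull (L.toContinuousLinearEquiv : W →L[ℝ] V) (psi J (L y)) := by
  rw [psi, psi, pull_dx, cov_tr]

theorem ang_psi {J : V → V} (h : RJ J) : Q.Ang (psi J) where
  smooth y hy := (h.psi_contDiffAt hy).contDiffWithinAt
  odd y _ := inv_dx _
  rad y hy := h.iprod_self_extd hy

end Iso

variable {E : Type*} [NormedAddCommGroup E] [NormedSpace ℝ E] [FiniteDimensional ℝ E]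
  {M : Type*} [MetricSpace M] [ChartedSpace E M] [IsManifold 𝓘(ℝ, E) ∞ M]
  [RiemannianBundle (fun x : M => TangentSpace 𝓘(ℝ, E) x)]
  [IsContMDiffRiemannianBundle 𝓘(ℝ, E) ∞ E (fun x : M => TangentSpace 𝓘(ℝ, E) x)]
  {e : ∀ x : M, TangentSpace 𝓘(ℝ, E) x → M}
  {D : ℝ} {p : M} {J : TangentSpace 𝓘(ℝ, E) p → TangentSpace 𝓘(ℝ, E) p}
  {ρ : TangentSpace 𝓘(ℝ, E) p → ℝ} {r₀ : ℝ}

/-- `fr` as a linear isometry -/
def frI (p : M) : Eu E ≃ₗᵢ[ℝ] TangentSpace 𝓘(ℝ, E) p where
  toLinearEquiv :=
    { toFun := frT p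
      map_add' := fun a b => (fr (E := E) p).map_add a b
      map_smul' := fun c a => (fr (E := E) p).map_smul c a
      invFun := fun v => (fr (E := E) p).symm v
      left_inv := fun a => (fr (E := E) p).symm_apply_apply a
      right_inv := fun a => (fr (E := E) p).apply_symm_apply a }
  norm_map' := fun a => nm_fr p a

theorem frI_apply (p : M) (y : Eu E) : frI (E := E) p y = frT p y := rfl

theorem ef_eq (p : M) (y : Eu E) : ef e p y = e p (frI p y) := rfl

/-- the connection form on the unit sphere of the tangent space -/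
def Psi (p : M) (J : TangentSpace 𝓘(ℝ, E) p → TangentSpace 𝓘(ℝ, E) p) : Eu E → Lam (Eu E) :=
  psi (tr (frI p) J)

theorem Psi_eq (p : M) (J : TangentSpace 𝓘(ℝ, E) p → TangentSpace 𝓘(ℝ, E) p) :
    Psi p J = Fm.pb (frI p) (psi J) := by
  funext y
  have h1 : fderiv ℝ (frI (E := E) p) y =
      ((frI (E := E) p).toContinuousLinearEquiv : Eu E →L[ℝ] TangentSpace 𝓘(ℝ, E) p) :=
    (frI (E := E) p).toContinuousLinearEquiv.hasFDerivAt.fderiv
  rw [Psi, psi_tr, Fm.pb, h1]

theorem ang_Psi (h : RJ J) : Q.Ang (Psi p J) := ang_psi (rj_tr (frI p) h)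

theorem cut_rho (hρ : Rho e D p ρ r₀) :
    Q.Cut (fun y : Eu E => ρ (frI p y)) (Metric.closedBall 0 r₀) where
  smooth := hρ.smooth.comp (frI (E := E) p).contDiff
  compact := isCompact_closedBall _ _
  one y hy := by
    rw [mem_closedBall_zero_iff, not_le] at hy
    exact hρ.one _ (by rw [LinearIsometryEquiv.norm_map]; exact hy)
  zero := by
    have h1 : Tendsto (frI (E := E) p) (𝓝 0) (𝓝 0) := by
      have := (frI (E := E) p).continuous.tendsto 0
      rwa [map_zero] at this
    exact h1.eventually hρ.zero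

theorem closedBall_sub (hρ : Rho e D p ρ r₀) :
    Metric.closedBall (0 : Eu E) r₀ ⊆ Metric.ball 0 D := Metric.closedBall_subset_ball hρ.lt

/-- existence of cut-off functions -/
theorem exists_rho (hD : 0 < D) : ∃ ρ : TangentSpace 𝓘(ℝ, E) p → ℝ, ∃ r₀ : ℝ,
    Rho e D p ρ r₀ := by
  refine ⟨fun v => Real.smoothTransition ((‖v‖ ^ 2 - D ^ 2 / 16) * (16 / (3 * D ^ 2))), D / 2,
    ?_, ?_, by linarith only [hD], by linarith only [hD], ?_⟩
  · exact Real.smoothTransition.contDiff.comp
      (((contDiff_norm_sq ℝ).sub contDiff_const).mul contDiff_const)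
  · filter_upwards [Metric.ball_mem_nhds (0 : TangentSpace 𝓘(ℝ, E) p)
      (by linarith only [hD] : 0 < D / 4)] with v hv
    rw [mem_ball_zero_iff] at hv
    refine Real.smoothTransition.zero_of_nonpos ?_
    refine mul_nonpos_of_nonpos_of_nonneg ?_ (by positivity)
    nlinarith only [hv, norm_nonneg v, hD]
  · intro v hv
    refine Real.smoothTransition.one_of_one_le ?_
    rw [mul_div_assoc', le_div_iff₀ (by positivity)]
    nlinarith only [hv, norm_nonneg v, hD]

/-! ### the number `q` -/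

/-- cut-off functions of the two conventions -/
theorem cut_cut {r : Eu E → ℝ} {K : Set (Eu E)} (hr : Q.Cut r K) : EN.Cut r where
  smooth := hr.smooth
  near := hr.zero
  far := ⟨K, hr.compact, hr.one⟩

/-- the bound for `q` -/
theorem qv_le (h : RJ J) {r : Eu E → ℝ} {K : Set (Eu E)} (hr : Q.Cut r K) {N m : ℕ}
    (hN : N = 2 * (m + 1)) (o : OrthonormalBasis (Fin N) ℝ (Eu E)) :
    |Q.qv volume o r (Psi p J) m| ≤ (2 * Real.pi) ^ (m + 1) := by
  subst hN
  exact EN.euler_bound o (rj_tr (frI p) h).gc (rj_tr (frI p) h).conn (cut_cut hr)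

/-! ### the form `F` in the coordinates of the ball -/

theorem sm_frI (p : M) {V : Type} [NormedAddCommGroup V] [NormedSpace ℝ V] {f : V → Eu E} {x : V}
    (hf : Sm f x) : Sm (fun y => frI (E := E) p (f y)) x := by
  filter_upwards [hf] with y hy
  exact (frI (E := E) p).contDiff.contDiffAt.comp y hy

/-- pull-back of the cut-off connection form -/
theorem pb_rho_psi (h : RJ J) (hρ : Rho e D p ρ r₀) :
    Fm.pb (frI (E := E) p) (fun v => ρ v • psi J v) = fun z => ρ (frI p z) • Psi p J z := by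
  funext z
  rw [Psi_eq, Fm.pb, map_smul]
  rfl

variable [CompactSpace M] [ConnectedSpace M] [IsRiemannianManifold 𝓘(ℝ, E) M]

section FF

variable (F : Facts e) (hD : 0 < D) (hB : InjGE e D)
    (hdiam : ∀ p q : M, dist p q ≤ D)
    (hl : ∀ x y : M, dist x y = D → finrank ℝ (Pl e D x y) = 2) (hJ : LineJ e D p J)
    (hρ : Rho e D p ρ r₀)

include F hD hB hdiam hl hJ hρ

/-- the form `F` in the chart of the ball -/
theorem FF_ef {x : Eu E} (hx : x ∈ Metric.ball (0 : Eu E) D) :
    (FF F hD hB hdiam hl hJ hρ).val (ef e p) x =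
      extd (fun z => ρ (frI p z) • Psi p J z) x := by
  rw [mem_ball_zero_iff] at hx
  have h1 : ‖frI (E := E) p x‖ < D := by rw [LinearIsometryEquiv.norm_map]; exact hx
  have h2 := FF_exp F hD hB hdiam hl hJ hρ (w := frI (E := E) p)
    (sm_frI p (Sm.of_contDiff contDiff_id x)) h1
  refine h2.trans ?_
  have h3 : ContDiff ℝ ∞ fun v => ρ v • psi J v := hJ.rj.cut_contDiff hρ.smooth hρ.zero
  change Fm.pb _ (extd _) x = _
  rw [← extd_pb ((frI (E := E) p).contDiff.contDiffAt.of_le Fm.two_le_infty)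
    (h3.differentiable (by simp) _), pb_rho_psi hJ.rj hρ]

/-- the integral of `F` over the geodesics through `p` -/
theorem B0_val {V : Type} [NormedAddCommGroup V] [NormedSpace ℝ V] [FiniteDimensional ℝ V]
    {c : V → UT E M} {u : V → TangentSpace 𝓘(ℝ, E) p} {x : V} (hc : (dUT E M).At c x)
    (hu : Sm u x) (h1 : ∀ᶠ y in 𝓝 x, foot (c y) = p ∧ (vec' (c y) : E) = u y) :
    (B0 F D (FF F hD hB hdiam hl hJ hρ)).val c x = Fm.pb u (psi J) x := by
  have hn : ∀ᶠ y in 𝓝 x, ‖u y‖ = 1 := by
    filter_upwards [h1] with y hy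
    have h2 := nm_vec' (c y)
    rw [hy.1, hy.2] at h2
    exact h2
  have hux : ‖u x‖ = 1 := hn.self_of_nhds
  have hux0 : u x ≠ 0 := by
    intro h0
    rw [h0, norm_zero] at hux
    exact zero_ne_one hux
  set β := Fm.pb u (psi J) x with hβ
  have hg : ∀ t, HasDerivAt (fun t : ℝ => ρ (t • u x)) (fderiv ℝ ρ (t • u x) (u x)) t := by
    intro t
    have h2 : HasDerivAt (fun t : ℝ => t • u x) (u x) t := by
      simpa using (hasDerivAt_id t).smul_const (u x)
    exact (hρ.smooth.differentiable (by simp) (t • u x)).hasFDerivAt.comp_hasDerivAt t h2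
  have hco : ∀ t ∈ Ioo (0 : ℝ) D, H584.co (Form.pull (gm e) (map_gm F)
      (FF F hD hB hdiam hl hJ hρ)) c x t = (fderiv ℝ ρ (t • u x) (u x)) • β := by
    intro t ht
    let w : V × ℝ → TangentSpace 𝓘(ℝ, E) p := fun q => q.2 • u q.1
    have hfst : ContinuousAt (Prod.fst : V × ℝ → V) (x, t) := continuous_fst.continuousAt
    have hw : Sm w (x, t) := by
      filter_upwards [hfst.eventually hu] with q hq
      exact contDiffAt_snd.smul (hq.comp q contDiffAt_fst)
    have hplot : gm e ∘ Form.cyl c =ᶠ[𝓝 (x, t)] fun q => e p (w q) := by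
      filter_upwards [hfst.eventually h1] with q hq
      change gam e (foot (c q.1)) (vec' (c q.1)) q.2 = gam e p (u q.1) q.2
      rw [hq.1, hq.2]
    have hnt : ‖w (x, t)‖ = t := by
      change ‖t • u x‖ = t
      rw [norm_smul, hux, mul_one, Real.norm_of_nonneg ht.1.le]
    have hw0 : w (x, t) ≠ 0 := norm_pos_iff.1 (by rw [hnt]; exact ht.1)
    have hval : (Form.pull (gm e) (map_gm F) (FF F hD hB hdiam hl hJ hρ)).val (Form.cyl c) (x, t) =
        Fm.pb w (WE.GG J ρ) (x, t) := by
      rw [Form.pull_val _ _ (Form.cyl_at hc t),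
        Form.congr _ ((map_gm F) (Form.cyl_at hc t)) hplot]
      exact FF_exp F hD hB hdiam hl hJ hρ hw (by rw [hnt]; exact ht.2)
    have hcs : ContDiff ℝ ∞ fun v => ρ v • psi J v := hJ.rj.cut_contDiff hρ.smooth hρ.zero
    have h2 : Fm.pb w (WE.GG J ρ) (x, t) = extd (Fm.pb w fun v => ρ v • psi J v) (x, t) := by
      change Fm.pb _ (extd _) _ = _
      rw [extd_pb (hw.contDiffAt.of_le Fm.two_le_infty) (hcs.differentiable (by simp) _)]
    have h3 : (Fm.pb w fun v => ρ v • psi J v) =ᶠ[𝓝 (x, t)]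
        fun q => ρ (w q) • Fm.pb (Prod.fst : V × ℝ → V) (Fm.pb u (psi J)) q := by
      have h4 : ∀ᶠ q : V × ℝ in 𝓝 (x, t), 0 < q.2 :=
        continuous_snd.continuousAt.eventually (lt_mem_nhds ht.1)
      filter_upwards [h4, hfst.eventually hu, hfst.eventually hn] with q h5 h6 h7
      have h8 : u q.1 ≠ 0 := by
        intro h0
        rw [h0, norm_zero] at h7
        exact zero_ne_one h7
      have h9 : DifferentiableAt ℝ (fun q : V × ℝ => u q.1) q :=
        (h6.comp q contDiffAt_fst).differentiableAt (by simp)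
      rw [← Fm.pb_comp (f := (Prod.fst : V × ℝ → V)) (g := u) (psi J)
        (h6.differentiableAt (by simp)) differentiableAt_fst]
      have h10 := hJ.rj.pb_smul (f := fun q : V × ℝ => u q.1) (r := fun q => q.2) (x := q) h9
        differentiableAt_snd h8 h5
      change Fm.pull _ (ρ (w q) • psi J (w q)) = _
      rw [map_smul]
      congr 1
    have h4 : DifferentiableAt ℝ (fun q => ρ (w q)) (x, t) :=
      (hρ.smooth.differentiable (by simp) _).comp _ hw.differentiableAt
    have hpu1 : ContDiffAt ℝ 1 (Fm.pb u (psi J)) x :=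
      Fm.contDiffAt_pb (m := 1) (n := ∞) hu.contDiffAt
        ((hJ.rj.psi_contDiffAt hux0).of_le (by simp)) (by norm_cast)
    have hpu : DifferentiableAt ℝ (Fm.pb u (psi J)) x := hpu1.differentiableAt (by simp)
    have h5 : DifferentiableAt ℝ (Fm.pb (Prod.fst : V × ℝ → V) (Fm.pb u (psi J))) (x, t) :=
      (Fm.contDiffAt_pb (m := 1) (n := ∞) (f := (Prod.fst : V × ℝ → V)) (x := (x, t))
        contDiffAt_fst hpu1 (by norm_cast)).differentiableAt (by simp)
    have h6 : fderiv ℝ (Prod.fst : V × ℝ → V) (x, t) = ContinuousLinearMap.fst ℝ V ℝ := fderiv_fst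
    have h7 : extd (Fm.pb (Prod.fst : V × ℝ → V) (Fm.pb u (psi J))) (x, t) =
        Fm.pull (ContinuousLinearMap.fst ℝ V ℝ) (extd (Fm.pb u (psi J)) x) := by
      rw [extd_pb contDiffAt_fst hpu, Fm.pb, h6]
    have h8 : fderiv ℝ (fun q => ρ (w q)) (x, t) (0, 1) = fderiv ℝ ρ (t • u x) (u x) := by
      have h9 : HasFDerivAt (fun q : V × ℝ => u q.1)
          ((fderiv ℝ u x).comp (ContinuousLinearMap.fst ℝ V ℝ)) (x, t) :=
        HasFDerivAt.comp (x, t) (f := Prod.fst) hu.differentiableAt.hasFDerivAt hasFDerivAt_fst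
      have h10 : HasFDerivAt w _ (x, t) := (hasFDerivAt_snd (p := ((x, t) : V × ℝ))).fun_smul h9
      have h11 := ((hρ.smooth.differentiable (by simp) (w (x, t))).hasFDerivAt.comp
        (x, t) h10).fderiv
      have h12 : fderiv ℝ (fun q => ρ (w q)) (x, t) = _ := h11
      rw [h12]
      simp [w]
    rw [H584.co, hval, h2, extd_congr h3, extd_smul h4 h5, h7, map_add, map_smul, H584.at1_fst,
      smul_zero, add_zero, Fm.pb, h6, Form.at1_mul_fst, at1_apply, iprod_dx, h8, at0_apply,
      AlgHom.commutes, ← Algebra.smul_def]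
  rw [B0, H584.KT_val _ _ hc, intervalIntegral.integral_congr_Ioo_of_le hD.le hco,
    intervalIntegral.integral_smul_const,
    intervalIntegral.integral_eq_sub_of_hasDerivAt (fun t _ => hg t)]
  · have h2 : ρ (D • u x) = 1 := hρ.one _ (by
      rw [norm_smul, hux, mul_one, Real.norm_of_nonneg hD.le]
      exact hρ.lt)
    have h3 : ρ ((0 : ℝ) • u x) = 0 := by
      rw [zero_smul]
      exact hρ.zero.self_of_nhds
    rw [h2, h3, sub_zero, one_smul]
  · refine Continuous.intervalIntegrable ?_ _ _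
    have h2 : Continuous fun t : ℝ => t • u x := continuous_id.smul continuous_const
    exact ((hρ.smooth.continuous_fderiv (by simp)).comp h2).clm_apply continuous_const

/-- the restriction of `B₀` to the fibre over the base point -/
theorem B0_cc {R : ℝ} (hR : 0 < R) (X : Fr e p R) (v0 : UT E M) {y : Eu E} (hy : y ≠ 0) :
    Fm.pull (ContinuousLinearMap.inr ℝ (Eu E) (Eu E))
      ((B0 F D (FF F hD hB hdiam hl hJ hρ)).val (cc X v0) (0, y)) = Psi p J y := by
  have h0 : ‖((0 : Eu E), y).1‖ < R := by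
    change ‖(0 : Eu E)‖ < R
    rw [norm_zero]
    exact hR
  have hat := at_cc X v0 (z := ((0 : Eu E), y)) h0 hy
  have hg : Sm (fun z : Eu E => ((0 : Eu E), z)) y :=
    Sm.of_contDiff (contDiff_const.prodMk contDiff_id) y
  have h1 := (B0 F D (FF F hD hB hdiam hl hJ hρ)).nat (u := cc X v0)
    (g := fun z : Eu E => ((0 : Eu E), z)) (x := y) hat hg
  have h2 : fderiv ℝ (fun z : Eu E => ((0 : Eu E), z)) y = ContinuousLinearMap.inr ℝ (Eu E) (Eu E) :=
    (hasFDerivAt_prodMk_right (0 : Eu E) y).fderiv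
  rw [h2] at h1
  rw [← h1]
  have hy' : 0 < ‖y‖ := norm_pos_iff.2 hy
  have hs : Sm (fun z : Eu E => ‖z‖⁻¹) y := by
    filter_upwards [isOpen_ne.mem_nhds hy] with z hz
    exact (contDiffAt_norm ℝ hz).inv (norm_ne_zero_iff.2 hz)
  have hu : Sm (fun z : Eu E => ‖z‖⁻¹ • frI (E := E) p z) y := by
    filter_upwards [hs] with z hz
    exact hz.smul (frI (E := E) p).contDiff.contDiffAt
  rw [B0_val F hD hB hdiam hl hJ hρ (c := cc X v0 ∘ fun z : Eu E => ((0 : Eu E), z))
    (u := fun z : Eu E => ‖z‖⁻¹ • frI (E := E) p z) ((dUT E M).comp hat hg) hu]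
  · rw [hJ.rj.pb_smul (f := frI (E := E) p) (r := fun z : Eu E => ‖z‖⁻¹)
      (frI (E := E) p).differentiableAt hs.differentiableAt ?_
      (inv_pos.2 hy'), Psi_eq]
    exact fun h => hy ((frI (E := E) p).map_eq_zero_iff.1 h)
  · filter_upwards [isOpen_ne.mem_nhds hy] with z hz
    have hz0 : ‖((0 : Eu E), z).1‖ < R := h0
    have h3 : ef e p ((0 : Eu E), z).1 = p := by
      change e p (frI (E := E) p 0) = p
      rw [map_zero]
      exact exp_zero_eq F.isExp p
    have h4 : cc X v0 (0, z) = _ := cc_eq X v0 (z := ((0 : Eu E), z)) hz0 hz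
    constructor
    · change foot (cc X v0 (0, z)) = p
      rw [h4]
      exact h3
    · change vec' (cc X v0 (0, z)) = _
      rw [h4]
      change (X.nr (0, z))⁻¹ • X.B 0 z = ‖z‖⁻¹ • fr p z
      have h5 : X.nr (0, z) = ‖z‖ := by
        change nm (ef e p ((0 : Eu E), z).1) (X.B 0 z) = ‖z‖
        rw [h3, X.zero, nm_fr]
      rw [h5, X.zero]

end FF

end

end Vale.Agent.P231.WQ
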