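import Vale.Agent.P231.WG.Cyc
import Vale.Agent.P231.WR.Rot
import Vale.Agent.P231.WA.Inv
import Vale.Agent.P231.WF.Conn
import Vale.Agent.P231.H584.Flow

/-!
# P231, block Q (gluing): the Fubini theorem in the coordinates of the unit tangent bundle
-/

set_option maxSynthPendingDepth 3
set_option linter.unusedSectionVars false
set_option linter.unusedVariables false

open Bundle Manifold Set Filter Module Topology MeasureTheory
open scoped ContDiff Manifold Topology

namespace Vale.Agent.P231.WQ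

noncomputable section

open Vale.Agent.P234 Vale.Agent.P231 Vale.Agent.P231.Fm Vale.Agent.P231.W Vale.Agent.P231.WG
  Vale.Agent.P231.WR

/-- bridge of the two notions of degree -/
theorem isDeg_of_mem_hom {E : Type*} [NormedAddCommGroup E] [NormedSpace ℝ E]
    [FiniteDimensional ℝ E] {k : ℕ} {w : Lam E} (h : w ∈ WF.hom E k) : Q.IsDeg k w := by
  induction k generalizing w with
  | zero =>
    obtain ⟨r, rfl⟩ := WF.mem_hom_zero.1 h
    exact Q.isDeg_algebraMap r
  | succ k ih =>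
    refine WF.hom_succ_induction (C := fun w => Q.IsDeg (k + 1) w) (Q.isDeg_zero _)
      (fun a v hv => ?_) (fun v w hv hw => hv.add hw) h
    have h1 := (Q.isDeg_dx a).mul (ih hv)
    rw [add_comm] at h1
    exact h1

/-- values of powers -/
theorem pow_val {X : Type*} {D : Dif X} {E : Type} [NormedAddCommGroup E] [NormedSpace ℝ E]
    [FiniteDimensional ℝ E] (a : Form D) {u : E → X} {x : E} (h : D.At u x) (n : ℕ) :
    (a ^ n).val u x = a.val u x ^ n := by
  induction n with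
  | zero => rw [pow_zero, pow_zero, Form.one_val h]
  | succ n ih => rw [pow_succ, pow_succ, Form.mul_val, ih]

variable {E : Type*} [NormedAddCommGroup E] [NormedSpace ℝ E]
  {M : Type*} [MetricSpace M] [ChartedSpace E M]
  [RiemannianBundle (fun x : M => TangentSpace 𝓘(ℝ, E) x)]
  {e : ∀ x : M, TangentSpace 𝓘(ℝ, E) x → M}
  [FiniteDimensional ℝ E] [IsManifold 𝓘(ℝ, E) ∞ M]

/-- a form pulled back by `P` is annihilated by the directions in which `P` is constant -/
theorem iprod_of_const (w : Form (dM E M)) {F : Type} [NormedAddCommGroup F] [NormedSpace ℝ F]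
    [FiniteDimensional ℝ F] {P : F → M} {z₀ : F} (hP : (dM E M).At P z₀) {c : ℝ → F} {V : F}
    (hc : HasDerivAt c V 0) (hc0 : c 0 = z₀) (hconst : ∀ᶠ t in 𝓝 (0 : ℝ), P (c t) = P z₀) :
    iprod V (w.val P z₀) = 0 := by
  have hP' : ∀ᶠ y in 𝓝 z₀, ContMDiffAt 𝓘(ℝ, F) 𝓘(ℝ, E) ∞ P y := hP
  let φ : E ≃L[ℝ] Eu E :=
    ContinuousLinearEquiv.ofFinrankEq (by rw [finrank_euclideanSpace, Fintype.card_fin])
  have hux : ContMDiffAt 𝓘(ℝ, F) 𝓘(ℝ, E) ∞ P z₀ := hP'.self_of_nhds
  have hsrc : ∀ᶠ y in 𝓝 z₀, P y ∈ (extChartAt 𝓘(ℝ, E) (P z₀)).source :=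
    hux.continuousAt.eventually ((isOpen_extChartAt_source (I := 𝓘(ℝ, E)) (P z₀)).mem_nhds
      (mem_extChartAt_source (P z₀)))
  let v : Eu E → M := fun z => (extChartAt 𝓘(ℝ, E) (P z₀)).symm (φ.symm z)
  let G : F → Eu E := fun y => φ (extChartAt 𝓘(ℝ, E) (P z₀) (P y))
  have hG : Sm G z₀ := by
    have h1 : Sm (fun y => extChartAt 𝓘(ℝ, E) (P z₀) (P y)) z₀ := by
      filter_upwards [hP', hsrc] with y h1 h2
      rw [extChartAt_source] at h2
      exact ((contMDiffAt_extChartAt' h2).comp y h1).contDiffAt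
    exact Sm.comp (f := φ) (Sm.of_contDiff φ.contDiff _) h1
  have hv : (dM E M).At v (G z₀) := by
    have h2 : ∀ᶠ z in 𝓝 (φ (extChartAt 𝓘(ℝ, E) (P z₀) (P z₀))),
        φ.symm z ∈ (extChartAt 𝓘(ℝ, E) (P z₀)).target := by
      refine φ.symm.continuous.continuousAt.eventually ?_
      rw [φ.symm_apply_apply]
      exact extChartAt_target_mem_nhds (P z₀)
    have h3 : ∀ᶠ z in 𝓝 (φ (extChartAt 𝓘(ℝ, E) (P z₀) (P z₀))), ContMDiffAt
        𝓘(ℝ, Eu E) 𝓘(ℝ, E) ∞ v z := by
      filter_upwards [h2] with z hz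
      have h4 : ContMDiffAt 𝓘(ℝ, E) 𝓘(ℝ, E) ∞ (extChartAt 𝓘(ℝ, E) (P z₀)).symm (φ.symm z) :=
        (contMDiffOn_extChartAt_symm (P z₀)).contMDiffAt
          ((isOpen_extChartAt_target (P z₀)).mem_nhds hz)
      exact h4.comp z (φ.symm.contDiff.contDiffAt.contMDiffAt)
    exact h3
  have hfac : P =ᶠ[𝓝 z₀] v ∘ G := by
    filter_upwards [hsrc] with y hy
    simp only [Function.comp_apply, v, G, φ.symm_apply_apply]
    exact ((extChartAt 𝓘(ℝ, E) (P z₀)).left_inv hy).symm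
  have h1 : w.val P z₀ = Fm.pull (fderiv ℝ G z₀) (w.val v (G z₀)) := by
    rw [w.congr hP hfac, w.nat hv hG]
  have h2 : fderiv ℝ G z₀ V = 0 := by
    have h3 : HasDerivAt (fun t => G (c t)) (fderiv ℝ G z₀ V) 0 := by
      have h4 : HasFDerivAt G (fderiv ℝ G z₀) (c 0) := by
        rw [hc0]
        exact hG.differentiableAt.hasFDerivAt
      exact h4.comp_hasDerivAt (0 : ℝ) hc
    have h5 : HasDerivAt (fun t => G (c t)) 0 0 := by
      refine (hasDerivAt_const (0 : ℝ) (G z₀)).congr_of_eventuallyEq ?_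
      filter_upwards [hconst] with t ht
      simp only [G]
      rw [ht]
    exact h3.unique h5
  rw [h1, pull_iprod, h2, Q.iprod_zero_left, map_zero]

variable [IsContMDiffRiemannianBundle 𝓘(ℝ, E) ∞ E (fun x : M => TangentSpace 𝓘(ℝ, E) x)]

section Curves

variable {p : M} {R : ℝ} (X : Fr e p R) (v0 : UT E M)

/-- the vector of `cc` -/
theorem vec'_cc {z : Eu E × Eu E} (h1 : ‖z.1‖ < R) (h2 : z.2 ≠ 0) :
    X.nr z • vec' (cc X v0 z) = X.B z.1 z.2 := by
  have h3 : vec' (cc X v0 z) = (X.nr z)⁻¹ • X.B z.1 z.2 := by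
    rw [cc_eq X v0 h1 h2]
    rfl
  rw [h3, smul_smul, mul_inv_cancel₀ (X.nr_pos h1 h2).ne', one_smul]

theorem B_surj {ξ : Eu E} (h1 : ‖ξ‖ < R) : Function.Surjective (X.B ξ) := by
  have h2 : finrank ℝ (Eu E) = finrank ℝ E := by
    rw [finrank_euclideanSpace, Fintype.card_fin]
  have h3 := (LinearMap.injective_iff_surjective_of_finrank_eq_finrank h2
    (f := ((X.B ξ : Eu E →L[ℝ] E) : Eu E →ₗ[ℝ] E))).1 (X.inj ξ h1)
  exact h3

/-- unit combinations in the coordinates -/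
theorem cc_comb {x y z : Eu E} (hx : ‖x‖ < R) (hy : y ≠ 0) {D : ℝ} {p' : Pr e D}
    (hv : p'.v = cc X v0 (x, y)) (hz : X.B x z = X.nr (x, y) • vec' p'.w) (t : ℝ) :
    cc X v0 (x, Real.cos t • y + Real.sin t • z) = rv p' t := by
  have hn := X.nr_pos (z := (x, y)) hx hy
  have hB : X.B x (Real.cos t • y + Real.sin t • z) = X.nr (x, y) • vec' (rv p' t) := by
    rw [map_add, map_smul, map_smul, hz, vec'_rv, hv, ← vec'_cc X v0 (z := (x, y)) hx hy]
    module
  have hnr : X.nr (x, Real.cos t • y + Real.sin t • z) = X.nr (x, y) := by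
    change nm (ef e p x) (X.B x (Real.cos t • y + Real.sin t • z)) = _
    have h1 := nm_smul (E := E) (ef e p x) (vec' (rv p' t)) (X.nr (x, y))
    have h2 : nm (ef e p x) (vec' (rv p' t)) = 1 := by
      have h3 := nm_vec' (rv p' t)
      rw [foot_rv, hv, foot_cc X v0 (z := (x, y)) hx hy] at h3
      exact h3
    rw [hB, h1, h2, mul_one, abs_of_pos hn]
  have hne : X.nr (x, Real.cos t • y + Real.sin t • z) ≠ 0 := by
    rw [hnr]
    exact hn.ne'
  rw [cc_of X v0 hne, ← mk_eta (rv p' t)]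
  refine mk_congr ?_ ?_
  · rw [foot_rv, hv, foot_cc X v0 (z := (x, y)) hx hy]
  · change (X.nr (x, Real.cos t • y + Real.sin t • z))⁻¹ •
      X.B x (Real.cos t • y + Real.sin t • z) = _
    rw [hnr, hB, smul_smul, inv_mul_cancel₀ hn.ne', one_smul]

end Curves

variable [CompactSpace M] [ConnectedSpace M] [IsRiemannianManifold 𝓘(ℝ, E) M]

section Null

variable {p : M} {R D : ℝ} (X : Fr e p R) (v0 : UT E M)

theorem val_bar (F : Facts e) (Om : Form (dM E M)) {z : Eu E × Eu E} (h1 : ‖z.1‖ < R)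
    (h2 : z.2 ≠ 0) : (Form.pull (bar e D) (map_bar F D) Om).val (cc X v0) z =
      Om.val (fun z => bar e D (cc X v0 z)) z := Form.pull_val _ _ (at_cc X v0 h1 h2)

/-- the null vector -/
theorem exists_null (F : Facts e) (hD : 0 < D) (hB : InjGE e D)
    (hdiam : ∀ p q : M, dist p q ≤ D) {w : UT E M → UT E M} (h : IsSec e D w)
    (Om : Form (dM E M)) {r : Eu E → ℝ}
    (hrad : ∀ y z : Eu E, (inner ℝ y z : ℝ) = 0 → fderiv ℝ r y z = 0) {x y : Eu E}
    (hx : ‖x‖ < R) (hy : y ≠ 0) :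
    ∃ z : Eu E, z ≠ 0 ∧ fderiv ℝ r y z = 0 ∧ iprod ((0, z) : Eu E × Eu E)
      ((Form.pull (bar e D) (map_bar F D) Om).val (cc X v0) (x, y)) = 0 := by
  set P : Eu E × Eu E → M := fun z => bar e D (cc X v0 z) with hPdef
  have hat : (dM E M).At P (x, y) := map_bar F D (at_cc X v0 (z := (x, y)) hx hy)
  rw [val_bar X v0 F Om (z := (x, y)) hx hy]
  have hn := X.nr_pos (z := (x, y)) hx hy
  obtain ⟨z', hz'⟩ := B_surj X hx (X.nr (x, y) • vec' (w (cc X v0 (x, y))))
  -- radial direction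
  have h1 : iprod ((0, y) : Eu E × Eu E) (Om.val P (x, y)) = 0 := by
    have hc : HasDerivAt (fun t : ℝ => ((x, y + t • y) : Eu E × Eu E)) (0, y) 0 := by
      have h3 : HasDerivAt (fun t : ℝ => t • y) ((1 : ℝ) • y) 0 :=
        (hasDerivAt_id (0 : ℝ)).smul_const y
      rw [one_smul] at h3
      exact (hasDerivAt_const (0 : ℝ) x).prodMk (h3.const_add y)
    refine iprod_of_const Om hat hc (by rw [zero_smul, add_zero]) ?_
    have h4 : ∀ᶠ t in 𝓝 (0 : ℝ), -1 < t := lt_mem_nhds (by norm_num)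
    filter_upwards [h4] with t ht
    have h5 : y + t • y = (1 + t) • y := by rw [add_smul, one_smul]
    simp only [hPdef]
    rw [h5, cc_smul X v0 (z := (x, y)) hx hy (t := 1 + t) (by linarith)]
  -- rotation direction
  have h2 : iprod ((0, z') : Eu E × Eu E) (Om.val P (x, y)) = 0 := by
    have hc : HasDerivAt (fun t : ℝ => ((x, Real.cos t • y + Real.sin t • z') : Eu E × Eu E))
        (0, z') 0 := (hasDerivAt_const (0 : ℝ) x).prodMk (H703.hasDerivAt_circle y z')
    refine iprod_of_const Om hat hc ?_ (Eventually.of_forall fun t => ?_)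
    · rw [Real.cos_zero, Real.sin_zero, one_smul, zero_smul, add_zero]
    · simp only [hPdef]
      rw [cc_comb X v0 hx hy (p' := h.gr (cc X v0 (x, y))) rfl hz',
        bar_rv F hD hB hdiam]
      rfl
  set a : ℝ := (inner ℝ y z' : ℝ) / (inner ℝ y y : ℝ) with ha
  have hyy : (inner ℝ y y : ℝ) ≠ 0 := by
    rw [real_inner_self_eq_norm_sq]
    exact pow_ne_zero 2 (norm_ne_zero_iff.2 hy)
  refine ⟨z' - a • y, ?_, ?_, ?_⟩
  · intro h0
    have h3 : z' = a • y := sub_eq_zero.1 h0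
    have hL := h.isL (cc X v0 (x, y))
    have h4 : X.nr (x, y) • vec' (w (cc X v0 (x, y))) =
        a • (X.nr (x, y) • vec' (cc X v0 (x, y))) := by
      rw [vec'_cc X v0 (z := (x, y)) hx hy, ← hz', h3, map_smul]
    have h5 : vec' (w (cc X v0 (x, y))) = a • vec' (cc X v0 (x, y)) := by
      have h6 := congrArg (fun b => (X.nr (x, y))⁻¹ • b) h4
      simp only [smul_smul] at h6
      rw [inv_mul_cancel₀ hn.ne', one_smul] at h6
      rw [h6]
      congr 1
      field_simp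
    have h7 := hL.orth
    rw [h5, ip_smul_right', ip_vec', mul_one] at h7
    have h8 := hL.ip_self
    rw [h5, h7, zero_smul] at h8
    have h9 : ip (foot (cc X v0 (x, y))) (0 : E) 0 = 0 :=
      inner_zero_left (𝕜 := ℝ) (E := TangentSpace 𝓘(ℝ, E) (foot (cc X v0 (x, y)))) _
    rw [h9] at h8
    exact zero_ne_one h8
  · refine hrad _ _ ?_
    rw [inner_sub_right, inner_smul_right, ha, div_mul_cancel₀ _ hyy, sub_self]
  · have h3 : ((0, z' - a • y) : Eu E × Eu E) = (0, z') + (-a) • ((0, y) : Eu E × Eu E) := by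
      refine Prod.ext ?_ ?_
      · simp
      · simp [sub_eq_add_neg]
    have h4 : ∀ (v₁ v₂ : Eu E × Eu E) (W : Lam (Eu E × Eu E)),
        iprod (v₁ + v₂) W = iprod v₁ W + iprod v₂ W := fun v₁ v₂ W => iprod_add v₁ v₂ W
    rw [h3, h4, iprod_smul, h1, h2, smul_zero, add_zero]

end Null

section Data

variable {p : M} {R D : ℝ} (X : Fr e p R) (v0 : UT E M)

/-- `exp_p` in orthonormal coordinates is a plot -/
theorem at_ef (F : Facts e) (p : M) (x : Eu E) : (dM E M).At (ef e p) x := by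
  have h1 : ContMDiff 𝓘(ℝ, Eu E) 𝓘(ℝ, E) ∞ (ef e p) := by
    let g : Eu E → TangentSpace 𝓘(ℝ, E) p := fun ξ => fr (E := E) p ξ
    have h2 : ContDiff ℝ ∞ g :=
      ContinuousLinearMap.contDiff (F := TangentSpace 𝓘(ℝ, E) p)
        ((fr (E := E) p : Eu E ≃L[ℝ] E) : Eu E →L[ℝ] E)
    exact (contMDiff_exp_fiber F.isExp p).comp h2.contMDiff
  exact Eventually.of_forall fun y => h1.contMDiffAt

/-- the exterior derivative of `B₀` -/
theorem d_B0 (F : Facts e) (D : ℝ) {Om : Form (dM E M)} (hd : Om.d = 0) :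
    (KT D (Form.pull (gm e) (map_gm F) Om)).d =
      Form.pull (bar e D) (map_bar F D) Om - Form.pull foot map_foot Om := by
  have h := WA.KT_homotopy D (Form.pull (gm e) (map_gm F) Om)
  rw [WA.at_pull (map_gm F) D (map_bar F D) (fun _ => rfl),
    WA.at_pull (map_gm F) 0 map_foot (fun v => gm_zero F v), ← Form.pull_d, hd] at h
  have h3 : Form.pull (gm e) (map_gm F) (0 : Form (dM E M)) = 0 :=
    map_zero (Form.pullA (gm e) (map_gm F))
  rw [h3, WA.KT_zero', zero_add] at h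
  exact h.symm

theorem val_foot (F : Facts e) (Om : Form (dM E M)) {z : Eu E × Eu E} (h1 : ‖z.1‖ < R)
    (h2 : z.2 ≠ 0) : (Form.pull foot map_foot Om).val (cc X v0) z =
      Q.pf (F := Eu E) (Om.val (ef e p) z.1) := by
  rw [Form.pull_val _ _ (at_cc X v0 h1 h2)]
  have h3 : (foot ∘ cc X v0 : Eu E × Eu E → M) =ᶠ[𝓝 z] ef e p ∘ Prod.fst := by
    filter_upwards [(isOpen_dom (E := E) R).mem_nhds ⟨mem_ball_zero_iff.2 h1, h2⟩] with y hy
    exact foot_cc X v0 (mem_ball_zero_iff.1 hy.1) hy.2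
  have h4 : (dM E M).At (ef e p) z.1 := at_ef F p z.1
  rw [Om.congr (map_foot (at_cc X v0 h1 h2)) h3,
    Om.nat (u := ef e p) (g := Prod.fst) (x := z) h4 (Sm.of_contDiff contDiff_fst _), fderiv_fst]
  rfl

/-- THE DATA of the Fubini theorem -/
theorem data (F : Facts e) (hD : 0 < D) (hB : InjGE e D)
    (hdiam : ∀ p q : M, dist p q ≤ D) {w : UT E M → UT E M} (h : IsSec e D w)
    {Om : Form (dM E M)} (hd : Om.d = 0) (h2 : WF.IsDeg Om 2) {r : Eu E → ℝ}
    (hrad : ∀ y z : Eu E, (inner ℝ y z : ℝ) = 0 → fderiv ℝ r y z = 0) :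
    Q.Data (Metric.ball (0 : Eu E) R) r
      ((KT D (Form.pull (gm e) (map_gm F) Om)).val (cc X v0))
      ((Form.pull (bar e D) (map_bar F D) Om).val (cc X v0))
      (fun x => Om.val (ef e p) x) where
  openU := Metric.isOpen_ball
  smB := contDiffOn_val X v0 _
  smH := contDiffOn_val X v0 _
  dB x hx y hy := by
    have hx' := mem_ball_zero_iff.1 hx
    have hat := at_cc X v0 (z := (x, y)) hx' hy
    rw [← Form.d_val _ hat, d_B0 F D hd, Form.sub_val, val_foot X v0 F Om (z := (x, y)) hx' hy]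
  dH x hx y hy := by
    have hat := at_cc X v0 (z := (x, y)) (mem_ball_zero_iff.1 hx) hy
    rw [← Form.d_val _ hat, ← Form.pull_d, hd]
    have h3 : Form.pull (bar e D) (map_bar F D) (0 : Form (dM E M)) = 0 :=
      map_zero (Form.pullA (bar e D) (map_bar F D))
    rw [h3, Form.zero_val]
  degG x hx := isDeg_of_mem_hom (h2 (at_ef F p x))
  degH x hx y hy :=
    isDeg_of_mem_hom ((WF.IsDeg.pull (map_bar F D) h2)
      (at_cc X v0 (z := (x, y)) (mem_ball_zero_iff.1 hx) hy))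
  null x hx y hy := exists_null X v0 F hD hB hdiam h Om hrad (mem_ball_zero_iff.1 hx) hy

/-- the form in the coordinates -/
theorem val_eq (F : Facts e) {Om : Form (dM E M)} (n m : ℕ) {z : Eu E × Eu E} (h1 : ‖z.1‖ < R)
    (h2 : z.2 ≠ 0) :
    (KT D (Form.pull (gm e) (map_gm F) Om) * ((Form.pull foot map_foot Om) ^ n *
      (Form.pull (bar e D) (map_bar F D) Om) ^ m)).val (cc X v0) z =
    (KT D (Form.pull (gm e) (map_gm F) Om)).val (cc X v0) z *
      Q.pf (Om.val (ef e p) z.1) ^ n *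
      (Form.pull (bar e D) (map_bar F D) Om).val (cc X v0) z ^ m := by
  have hat := at_cc X v0 h1 h2
  rw [Form.mul_val, Form.mul_val, pow_val _ hat, pow_val _ hat, val_foot X v0 F Om h1 h2,
    mul_assoc]

/-- **the Fubini theorem for the fundamental cycle** -/
theorem II_eq (F : Facts e) (hD : 0 < D) (hB : InjGE e D)
    (hdiam : ∀ p q : M, dist p q ≤ D) {w : UT E M → UT E M} (h : IsSec e D w)
    {Om : Form (dM E M)} (hd : Om.d = 0) (h2 : WF.IsDeg Om 2) {n : ℕ} (hn : 1 ≤ n)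
    (hE : finrank ℝ E = 2 * n) {k : ℕ} (b : Basis (Fin k) ℝ (Eu E)) {r : Eu E → ℝ}
    {K : Set (Eu E)} (hr : Q.Cut r K)
    (hrad : ∀ y z : Eu E, (inner ℝ y z : ℝ) = 0 → fderiv ℝ r y z = 0) (hDR : D < R)
    {Psi : Eu E → Lam (Eu E)} (hPsi : Q.Ang Psi) {f : Eu E → ℝ} {K' : Set (Eu E)}
    (hf : Q.Cut f K') (hK' : K' ⊆ Metric.ball (0 : Eu E) D)
    (hG : ∀ x ∈ Metric.ball (0 : Eu E) D, Om.val (ef e p) x = extd (fun z => f z • Psi z) x)
    (hB0 : ∀ y ≠ 0, Fm.pull (ContinuousLinearMap.inr ℝ (Eu E) (Eu E))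
      ((KT D (Form.pull (gm e) (map_gm F) Om)).val (cc X v0) (0, y)) = Psi y) :
    II X v0 b hr hDR (KT D (Form.pull (gm e) (map_gm F) Om) *
      ((Form.pull foot map_foot Om) ^ n *
        (Form.pull (bar e D) (map_bar F D) Om) ^ (n - 1))) =
      Q.qv volume b r Psi (n - 1) * Q.qv volume b r Psi (n - 1) := by
  obtain ⟨m, rfl⟩ : ∃ m, n = m + 1 := ⟨n - 1, by omega⟩
  have hR : 0 < R := hD.trans hDR
  have hk : finrank ℝ (Eu E) = 2 * (m + 1) := by
    rw [finrank_euclideanSpace, Fintype.card_fin, hE]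
  have h3 := (data X v0 F hD hB hdiam h hd h2 hrad).main
    (convex_ball (0 : Eu E) R).isPreconnected (Metric.mem_ball_self hR) volume hr hPsi hB0 hf hK'
    (Metric.ball_subset_ball hDR.le) measurableSet_ball hG (m := m) b hk
  rw [Nat.add_sub_cancel, ← h3, II_apply]
  refine setIntegral_congr_fun measurableSet_ball fun x hx => ?_
  have hx' : ‖x‖ < R := (mem_ball_zero_iff.1 hx).trans hDR
  have h4 : th X v0 b r (KT D (Form.pull (gm e) (map_gm F) Om) *
      ((Form.pull foot map_foot Om) ^ (m + 1) *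
        (Form.pull (bar e D) (map_bar F D) Om) ^ m)) x =
      Q.phi volume b r (fun z => (KT D (Form.pull (gm e) (map_gm F) Om)).val (cc X v0) z *
        Q.pf (Om.val (ef e p) z.1) ^ (m + 1) *
        (Form.pull (bar e D) (map_bar F D) Om).val (cc X v0) z ^ m) x :=
    Q.phi_congr volume b hr fun y hy => val_eq X v0 F (m + 1) m (z := (x, y)) hx' hy
  exact congrArg (fun a => evalForm a b) h4

/-- the same, in absolute value and in the form used by the assembly -/
theorem hQ (F : Facts e) (hD : 0 < D) (hB : InjGE e D)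
    (hdiam : ∀ p q : M, dist p q ≤ D) {w : UT E M → UT E M} (h : IsSec e D w)
    {Om : Form (dM E M)} (hd : Om.d = 0) (h2 : WF.IsDeg Om 2) {n : ℕ} (hn : 1 ≤ n)
    (hE : finrank ℝ E = 2 * n) {k : ℕ} (b : Basis (Fin k) ℝ (Eu E)) {r : Eu E → ℝ}
    {K : Set (Eu E)} (hr : Q.Cut r K)
    (hrad : ∀ y z : Eu E, (inner ℝ y z : ℝ) = 0 → fderiv ℝ r y z = 0) (hDR : D < R)
    {Psi : Eu E → Lam (Eu E)} (hPsi : Q.Ang Psi) {f : Eu E → ℝ} {K' : Set (Eu E)}
    (hf : Q.Cut f K') (hK' : K' ⊆ Metric.ball (0 : Eu E) D)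
    (hG : ∀ x ∈ Metric.ball (0 : Eu E) D, Om.val (ef e p) x = extd (fun z => f z • Psi z) x)
    (hB0 : ∀ y ≠ 0, Fm.pull (ContinuousLinearMap.inr ℝ (Eu E) (Eu E))
      ((KT D (Form.pull (gm e) (map_gm F) Om)).val (cc X v0) (0, y)) = Psi y) :
    |II X v0 b hr hDR (KT D (Form.pull (gm e) (map_gm F) Om) *
      ((Form.pull foot map_foot Om) ^ n *
        (Form.pull (fun v => gm e (v, D)) (H584.map_at (map_gm F) D) Om) ^ (n - 1)))| =
      Q.qv volume b r Psi (n - 1) ^ 2 := by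
  have h3 := II_eq X v0 F hD hB hdiam h hd h2 hn hE b hr hrad hDR hPsi hf hK' hG hB0
  have h4 : II X v0 b hr hDR (KT D (Form.pull (gm e) (map_gm F) Om) *
      ((Form.pull foot map_foot Om) ^ n *
        (Form.pull (fun v => gm e (v, D)) (H584.map_at (map_gm F) D) Om) ^ (n - 1))) =
      Q.qv volume b r Psi (n - 1) * Q.qv volume b r Psi (n - 1) := h3
  rw [h4, abs_mul_self, sq]

end Data

end

end Vale.Agent.P231.WQ
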