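import Vale.Agent.P231.Q.Main

/-!
# P231, block Q (gluing): a radial cut function
-/

set_option linter.unusedSectionVars false
set_option linter.unusedVariables false

open Set Filter Topology Metric
open scoped ContDiff

namespace Vale.Agent.P231.WQ

open Vale.Agent.P231.Fm Vale.Agent.P231.Q

noncomputable section

variable {V : Type*} [NormedAddCommGroup V] [InnerProductSpace ℝ V] [FiniteDimensional ℝ V]

/-- the radial cut: it is `0` for `‖y‖² ≤ 1`, and `1` for `‖y‖² ≥ 2` -/
def radCut (V : Type*) [NormedAddCommGroup V] [InnerProductSpace ℝ V] (y : V) : ℝ :=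
  Real.smoothTransition (‖y‖ ^ 2 - 1)

theorem contDiff_radCut : ContDiff ℝ ∞ (radCut V) :=
  Real.smoothTransition.contDiff.comp ((contDiff_norm_sq ℝ).sub contDiff_const)

theorem cut_radCut : Q.Cut (radCut V) (closedBall (0 : V) 2) where
  smooth := contDiff_radCut
  compact := isCompact_closedBall 0 2
  one y hy := by
    rw [mem_closedBall_zero_iff, not_le] at hy
    refine Real.smoothTransition.one_of_one_le ?_
    nlinarith [norm_nonneg y]
  zero := by
    filter_upwards [ball_mem_nhds (0 : V) one_pos] with y hy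
    rw [mem_ball_zero_iff] at hy
    refine Real.smoothTransition.zero_of_nonpos ?_
    nlinarith [norm_nonneg y]

theorem radCut_rad (y z : V) (h : inner ℝ y z = 0) : fderiv ℝ (radCut V) y z = 0 := by
  have h1 : HasFDerivAt (fun y : V => ‖y‖ ^ 2 - 1) (2 • (innerSL ℝ y : V →L[ℝ] ℝ)) y :=
    ((hasStrictFDerivAt_norm_sq y).hasFDerivAt).sub_const 1
  have h2 : HasDerivAt Real.smoothTransition (deriv Real.smoothTransition (‖y‖ ^ 2 - 1))
      (‖y‖ ^ 2 - 1) :=
    ((Real.smoothTransition.contDiff (n := 1)).differentiable one_ne_zero _).hasDerivAt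
  have h3 := h2.comp_hasFDerivAt y h1
  have h4 : fderiv ℝ (radCut V) y = _ := h3.fderiv
  rw [h4]
  change deriv Real.smoothTransition (‖y‖ ^ 2 - 1) • (2 • (innerSL ℝ y z)) = 0
  rw [innerSL_apply_apply, h, smul_zero, smul_zero]

theorem exists_radCut : ∃ (r : V → ℝ) (K : Set V), Q.Cut r K ∧
    ∀ y z, inner ℝ y z = 0 → fderiv ℝ r y z = 0 :=
  ⟨_, _, cut_radCut, radCut_rad⟩

end

end Vale.Agent.P231.WQ
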