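import Vale.Agent.P231.WQ.Glue
import Vale.Agent.P231.WQ.Psi
import Vale.Agent.P231.WQ.Rad
import Vale.Agent.P231.WR.Two
import Vale.Agent.P231.WE2.JJ
import Vale.Agent.P231.WD.Kappa

/-!
# P231, block Q (assembly): the closed form `F`, the rotation flow, and the value of the
right-hand side, in the shape used by the assembly `L.volume_le_of`
-/

set_option maxSynthPendingDepth 3
set_option linter.unusedSectionVars false
set_option linter.unusedVariables false

open Bundle Manifold Set Filter Module Topology MeasureTheory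
open scoped ContDiff Manifold Topology Real

namespace Vale.Agent.P231.WQ

noncomputable section

open Vale.Agent.P234 Vale.Agent.P231 Vale.Agent.P231.Fm Vale.Agent.P231.W Vale.Agent.P231.WG
  Vale.Agent.P231.WR Vale.Agent.P231.WE

/-- elements of degree `k` are fixed by the projection to degree `k` -/
theorem prt_of_mem {E : Type*} [NormedAddCommGroup E] [NormedSpace ℝ E] [FiniteDimensional ℝ E]
    {k : ℕ} {w : Lam E} (h : w ∈ WF.hom E k) : WA.prt k w = w := by
  induction k generalizing w with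
  | zero =>
    obtain ⟨r, rfl⟩ := WF.mem_hom_zero.1 h
    rw [WA.prt_zero, AlgHom.commutes]; rfl
  | succ k ih =>
    refine WF.hom_succ_induction (C := fun w => WA.prt (k + 1) w = w) (map_zero _)
      (fun a v hv => ?_) (fun v w hv hw => ?_) h
    · rw [WA.prt_succ_dxl_mul, ih hv]
    · rw [map_add, hv, hw]

/-- the two notions of degree -/
theorem isDeg_bridge' {X : Type*} {D : Dif X} {k : ℕ} {w : Form D} (h : WF.IsDeg w k) :
    Form.IsDeg k w :=
  Form.ext_val fun E _ _ _ u x hu => by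
    rw [Form.part_val]
    exact prt_of_mem (h hu)

variable {E : Type*} [NormedAddCommGroup E] [NormedSpace ℝ E]
  {M : Type*} [MetricSpace M] [ChartedSpace E M]
  [RiemannianBundle (fun x : M => TangentSpace 𝓘(ℝ, E) x)]
  {e : ∀ x : M, TangentSpace 𝓘(ℝ, E) x → M}
  [FiniteDimensional ℝ E] [IsManifold 𝓘(ℝ, E) ∞ M]
  [IsContMDiffRiemannianBundle 𝓘(ℝ, E) ∞ E (fun x : M => TangentSpace 𝓘(ℝ, E) x)]
  [CompactSpace M] [ConnectedSpace M] [IsRiemannianManifold 𝓘(ℝ, E) M]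

/-- the rotation field on a tangent space -/
theorem exists_lineJ (F : Facts e) {D : ℝ} (hD : 0 < D) (hB : InjGE e D)
    (hdiam : ∀ p q : M, dist p q ≤ D) (h3 : 3 ≤ finrank ℝ E)
    (hP : ∀ x y : M, dist x y = D → finrank ℝ (H775.Pl e D x y) = 2) (p : M) :
    ∃ J : TangentSpace 𝓘(ℝ, E) p → TangentSpace 𝓘(ℝ, E) p, LineJ e D p J := by
  obtain ⟨J, h1, h2, h3, h4, h5, h6, h7⟩ := WE2.exists_J F hD hB hdiam hP h3 p
  exact ⟨J, ⟨⟨h1, h2, h5, h4, h3⟩, h6⟩⟩

/-- **The form, the rotation flow and the right-hand side.** All inputs of `L.volume_le_of` coming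
from the blocks E3, F2, EN and Q. -/
theorem exists_main (F : Facts e) {D : ℝ} (hD : 0 < D) (hB : InjGE e D)
    (hdiam : ∀ p q : M, dist p q ≤ D) {n : ℕ} (hn : 2 ≤ n) {N : ℕ} (hN : finrank ℝ E = N)
    (hNn : N = 2 * n) (hP : ∀ x y : M, dist x y = D → finrank ℝ (H775.Pl e D x y) = 2)
    {p : M} {R : ℝ} (X : Fr e p R) (v0 : UT E M) (o : OrthonormalBasis (Fin N) ℝ (Eu E))
    {r : Eu E → ℝ} {K : Set (Eu E)} (hr : Q.Cut r K)
    (hrad : ∀ y z : Eu E, (inner ℝ y z : ℝ) = 0 → fderiv ℝ r y z = 0) (hDR : D < R) :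
    ∃ (Om : Form (dM E M)) (w : UT E M → UT E M) (hw : IsSec e D w)
      (hρ : IsFlow (dUT E M) (2 * π) hw.rot) (q : ℝ),
      Om.d = 0 ∧ Form.IsDeg 2 Om ∧ (∀ v t, foot (hw.rot (v, t)) = foot v) ∧
      (∀ v t, bar e D (hw.rot (v, t)) = bar e D v) ∧
      W.J hw.rot hρ.map (2 * π) (KT D (Form.pull (gm e) (map_gm F) Om)) = (2 * π) • 1 ∧
      |q| ≤ (2 * π) ^ n ∧
      |II X v0 o.toBasis hr hDR (KT D (Form.pull (gm e) (map_gm F) Om) *
        ((Form.pull foot map_foot Om) ^ n *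
          (Form.pull (fun v => gm e (v, D)) (H584.map_at (map_gm F) D) Om) ^ (n - 1)))| =
        q ^ 2 := by
  obtain ⟨J, hJ⟩ := exists_lineJ F hD hB hdiam (by omega) hP p
  obtain ⟨ρ, r₀, hρ⟩ := exists_rho (E := E) (M := M) (e := e) (p := p) hD
  obtain ⟨w, hw, hf, a1, a2, a3⟩ := exists_rot F hD hB hdiam (by omega) hP hJ hρ
  obtain ⟨m, rfl⟩ : ∃ m, n = m + 1 := ⟨n - 1, by omega⟩
  refine ⟨FF F hD hB hdiam hP hJ hρ, w, hw, hf, Q.qv volume o.toBasis r (Psi p J) m,
    FF_d F hD hB hdiam hP hJ hρ, isDeg_bridge' (FF_deg F hD hB hdiam hP hJ hρ), a1, a2, a3, ?_, ?_⟩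
  · have h1 := qv_le hJ.rj hr hNn o
    rwa [OrthonormalBasis.coe_toBasis]
  · exact WQ.hQ X v0 F hD hB hdiam hw (FF_d F hD hB hdiam hP hJ hρ)
      (FF_deg F hD hB hdiam hP hJ hρ) (by omega) (hN.trans hNn) o.toBasis hr hrad hDR
      (ang_Psi hJ.rj) (cut_rho hρ) (closedBall_sub hρ)
      (fun x hx => FF_ef F hD hB hdiam hP hJ hρ hx)
      (fun y hy => B0_cc F hD hB hdiam hP hJ hρ (hD.trans hDR) X v0 hy)

end

end Vale.Agent.P231.WQ
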